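import Vale.Agent.P275.R2.H887.A1
import Vale.Agent.P275.R2.H548.A2
import Vale.Agent.P275.R2.H682.B
import Vale.Agent.P275.R2.H907.C
import Vale.Agent.P275.H341.Rows4

/-! # P275, lowest degree: assembly of the limit -/

namespace Vale.Agent.P275.R2.H912

open Filter Topology Asymptotics Vale.Agent.P275.H341

/-- the partition with one part -/
def row1 (k : ℕ) : Fin k → ℕ := fun i => if (i : ℕ) = 0 then k else 0

theorem rowA1 (H8 : RowA8) (q : ℂ) (hq : q ≠ 0) (h1 : ∀ n, 0 < n → q ^ n ≠ 1) (k : ℕ) :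
    row1 k ∈ Pt k ∧ hk q (row1 k) = ∏ i ∈ Finset.range k, (q ^ (i + 1) - 1) :=
  H887.rowA1 H8 q hq h1 k

theorem rowA2 {k d : ℕ} (hd : 1 ≤ d) {lam : Fin k → ℕ} (hl : lam ∈ Pt k) (hne : lam ≠ row1 k) :
    (fun x : ℝ => hk ((x : ℂ) ^ d) lam) =O[atTop] fun x : ℝ => x ^ (d * (k * (k + 1) / 2 - 1)) :=
  H548.rowA2 hd hl hne

theorem small {f : ℝ → ℂ} {a b : ℕ} (hab : a < b) (hf : f =O[atTop] fun x : ℝ => x ^ a) :
    Tendsto (fun x : ℝ => f x / (x : ℂ) ^ b) atTop (𝓝 0) := by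
  have h1 : (fun x : ℝ => x ^ a) =o[atTop] fun x : ℝ => x ^ b := isLittleO_pow_pow_atTop_of_lt hab
  have h2 : f =o[atTop] fun x : ℝ => x ^ b := hf.trans_isLittleO h1
  have h3 : f =o[atTop] fun x : ℝ => (x : ℂ) ^ b := by
    refine h2.trans_isBigO (IsBigO.of_norm_right ?_)
    have : (fun x : ℝ => ‖(x : ℂ) ^ b‖) = fun x : ℝ => ‖x ^ b‖ := by
      funext x
      rw [norm_pow, norm_pow, Complex.norm_real]
    rw [this]
    exact (isBigO_refl _ _).norm_right
  exact h3.tendsto_div_nhds_zero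

theorem om_pow {g : ℕ} (q : ℂ) (d e k : ℕ) :
    om (powMonoidHom (2 * g - 2)) q d e k
      = ∑ lam ∈ Pt k, (hk (q ^ d) lam) ^ ((2 * g - 2) * e) := by
  unfold om
  apply Finset.sum_congr rfl
  intro lam _
  rw [powMonoidHom_apply, pow_mul]

theorem half (k : ℕ) : 2 * (k * (k + 1) / 2) = k * (k + 1) :=
  Nat.mul_div_cancel' (Nat.even_mul_succ_self k).two_dvd

theorem row1_term (H8 : RowA8) {d : ℕ} (hd : 1 ≤ d) (k : ℕ) {x : ℝ} (hx : 1 < x) :
    hk ((x : ℂ) ^ d) (row1 k) = ∏ i ∈ Finset.range k, (((x : ℂ) ^ d) ^ (i + 1) - 1) := by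
  refine (rowA1 H8 ((x : ℂ) ^ d) ?_ ?_ k).2
  · exact pow_ne_zero _ (by exact_mod_cast (by linarith : x ≠ 0))
  · intro n hn h
    have h1 : x ^ (d * n) = 1 := by
      have : ((x ^ (d * n) : ℝ) : ℂ) = ((1 : ℝ) : ℂ) := by
        push_cast
        rw [pow_mul]
        exact h
      exact_mod_cast this
    have h2 : 1 < x ^ (d * n) := one_lt_pow₀ hx (by positivity)
    linarith

theorem row1_mem (H8 : RowA8) (k : ℕ) : row1 k ∈ Pt k := by
  refine (rowA1 H8 2 (by norm_num) ?_ k).1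
  intro n hn h
  have h1 : ((2 ^ n : ℕ) : ℂ) = ((1 : ℕ) : ℂ) := by
    push_cast
    exact h
  have h2 := Nat.cast_injective h1
  have h3 : 1 < 2 ^ n := Nat.one_lt_two_pow hn.ne'
  omega

/-- the other partitions are small -/
theorem rest_O {g d e : ℕ} (hg : 2 ≤ g) (hd : 1 ≤ d) (k : ℕ) (hk1 : 1 ≤ k) :
    (fun x : ℝ => ∑ lam ∈ (Pt k).erase (row1 k), (hk ((x : ℂ) ^ d) lam) ^ ((2 * g - 2) * e))
      =O[atTop] fun x : ℝ => x ^ ((g - 1) * e * d * (k * (k + 1)) - 2 * ((g - 1) * e * d)) := by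
  refine IsBigO.fun_sum ?_
  intro lam hlam
  rw [Finset.mem_erase] at hlam
  have h1 := (rowA2 hd hlam.2 hlam.1).pow ((2 * g - 2) * e)
  refine h1.congr_right ?_
  intro x
  show (x ^ (d * (k * (k + 1) / 2 - 1))) ^ ((2 * g - 2) * e) = _
  rw [← pow_mul]
  congr 1
  have h2 := half k
  have h3 : 2 ≤ k * (k + 1) := by nlinarith
  obtain ⟨t, ht⟩ : ∃ t, k * (k + 1) / 2 = t + 1 := ⟨k * (k + 1) / 2 - 1, by omega⟩
  rw [show k * (k + 1) / 2 - 1 = t by omega, ← h2, ht, show 2 * g - 2 = 2 * (g - 1) by omega]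
  obtain ⟨s, hs⟩ : ∃ s, s = g - 1 := ⟨_, rfl⟩
  rw [← hs]
  have h4 : s * e * d * (2 * (t + 1)) - 2 * (s * e * d) = s * e * d * (2 * t) := by
    have : s * e * d * (2 * (t + 1)) = s * e * d * (2 * t) + 2 * (s * e * d) := by ring
    omega
  rw [h4]
  ring

/-- the coefficient of the product of the hooks -/
theorem om_top (H8 : RowA8) {g d e : ℕ} (hg : 2 ≤ g) (hd : 1 ≤ d) (he : 1 ≤ e) (k : ℕ)
    (hk1 : 1 ≤ k) :
    Tendsto (fun x : ℝ => om (powMonoidHom (2 * g - 2)) x d e k /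
      (x : ℂ) ^ ((g - 1) * e * d * (k * (k + 1)) - 1) - x) atTop
      (𝓝 (if d = 1 then -(((2 * g - 2) * e : ℕ) : ℂ) else 0)) := by
  have hE : 1 ≤ (g - 1) * e * d := by
    have : 1 ≤ g - 1 := by omega
    exact Nat.mul_pos (Nat.mul_pos this he) hd
  have h3 : 2 ≤ k * (k + 1) := by nlinarith
  have hM : d * ((2 * g - 2) * e) * (k * (k + 1) / 2) = (g - 1) * e * d * (k * (k + 1)) := by
    rw [show 2 * g - 2 = 2 * (g - 1) by omega]
    conv_rhs => rw [← half k]
    ring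
  have hM2 : 1 ≤ (g - 1) * e * d * (k * (k + 1)) := Nat.mul_pos hE (by omega)
  have h1 := H907.rowC hk1 hd ((2 * g - 2) * e)
  have h2 := small (b := (g - 1) * e * d * (k * (k + 1)) - 1) (by
    have : (g - 1) * e * d * 2 ≤ (g - 1) * e * d * (k * (k + 1)) := Nat.mul_le_mul_left _ h3
    omega) (rest_O (e := e) hg hd k hk1)
  have h4 := h1.add h2
  rw [add_zero] at h4
  refine h4.congr' ?_
  filter_upwards [eventually_gt_atTop (1 : ℝ)] with x hx
  rw [om_pow, ← Finset.add_sum_erase _ _ (row1_mem H8 k), row1_term H8 hd k hx, hM]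
  have hx0 : (x : ℂ) ≠ 0 := by exact_mod_cast (by linarith : x ≠ 0)
  obtain ⟨M, hMM⟩ : ∃ M, (g - 1) * e * d * (k * (k + 1)) = M + 1 :=
    ⟨(g - 1) * e * d * (k * (k + 1)) - 1, by omega⟩
  rw [hMM]
  simp only [Nat.add_sub_cancel]
  field_simp
  ring

/-- growth of the coefficients -/
theorem om_O (H8 : RowA8) {g d e : ℕ} (hg : 2 ≤ g) (hd : 1 ≤ d) (he : 1 ≤ e) (k : ℕ) :
    (fun x : ℝ => om (powMonoidHom (2 * g - 2)) x d e k) =O[atTop]
      fun x : ℝ => x ^ ((g - 1) * e * d * (k * (k + 1))) := by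
  rcases Nat.eq_zero_or_pos k with rfl | hk1
  · have : ∀ x : ℝ, om (powMonoidHom (2 * g - 2)) (x : ℂ) d e 0
        = om (powMonoidHom (2 * g - 2)) (0 : ℂ) d e 0 := by
      intro x
      rw [om_pow, om_pow]
      apply Finset.sum_congr rfl
      intro lam _
      unfold hk
      simp
    simp only [this, Nat.zero_mul, Nat.mul_zero, pow_zero]
    exact isBigO_const_const _ one_ne_zero _
  · have h1 := (om_top H8 hg hd he k hk1).isBigO_one ℝ
    have hE : 1 ≤ (g - 1) * e * d := by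
      have : 1 ≤ g - 1 := by omega
      exact Nat.mul_pos (Nat.mul_pos this he) hd
    have hM2 : 1 ≤ (g - 1) * e * d * (k * (k + 1)) := Nat.mul_pos hE (by positivity)
    obtain ⟨M, hMM⟩ : ∃ M, (g - 1) * e * d * (k * (k + 1)) = M + 1 :=
      ⟨(g - 1) * e * d * (k * (k + 1)) - 1, by omega⟩
    rw [hMM] at h1 ⊢
    simp only [Nat.add_sub_cancel] at h1
    have h5 : (fun x : ℝ => (x : ℂ)) =O[atTop] fun x : ℝ => x :=
      IsBigO.of_norm_left (by simpa [Complex.norm_real] using (isBigO_refl (fun x : ℝ => x) atTop).norm_left)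
    have h6 : (fun _ : ℝ => (1 : ℝ)) =O[atTop] fun x : ℝ => x := by
      refine IsBigO.of_bound 1 ?_
      filter_upwards [eventually_ge_atTop (1 : ℝ)] with x hx
      rw [norm_one, one_mul, Real.norm_eq_abs, abs_of_nonneg (by linarith)]
      exact hx
    have h7 := (h1.trans h6).add h5
    have h8 : (fun x : ℝ => (x : ℂ) ^ M) =O[atTop] fun x : ℝ => x ^ M := by
      exact h5.pow M
    have h9 := h7.mul h8
    refine h9.congr' ?_ ?_
    · filter_upwards [eventually_gt_atTop (1 : ℝ)] with x hx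
      have hx0 : (x : ℂ) ≠ 0 := by exact_mod_cast (by linarith : x ≠ 0)
      field_simp
      ring
    · filter_upwards with x
      ring

theorem om_zero {g : ℕ} (q : ℂ) (d e : ℕ) : om (powMonoidHom (2 * g - 2)) q d e 0 = 1 := by
  rw [om_pow]
  have h1 : (Pt 0) = {fun i => i.elim0} := by
    apply Finset.eq_singleton_iff_unique_mem.mpr
    constructor
    · unfold Pt
      rw [Finset.mem_filter]
      refine ⟨?_, fun i => i.elim0⟩
      rw [Finset.Nat.mem_antidiagonalTuple]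
      simp
    · intro y _
      funext i
      exact i.elim0
  rw [h1, Finset.sum_singleton]
  unfold hk
  simp

/-- the logarithmic derivative -/
theorem ld_top (H8 : RowA8) {g d e : ℕ} (hg : 2 ≤ g) (hd : 1 ≤ d) (he : 1 ≤ e) (k : ℕ)
    (hk1 : 1 ≤ k) :
    Tendsto (fun x : ℝ => ld (om (powMonoidHom (2 * g - 2)) x d e) k /
      (x : ℂ) ^ ((g - 1) * e * d * (k * (k + 1)) - 1) - k * x) atTop
      (𝓝 (k * if d = 1 then -(((2 * g - 2) * e : ℕ) : ℂ) else 0)) := by
  have hE : 1 ≤ (g - 1) * e * d := by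
    have : 1 ≤ g - 1 := by omega
    exact Nat.mul_pos (Nat.mul_pos this he) hd
  have h3 : 2 ≤ k * (k + 1) := by nlinarith
  have h1 := H682.rowB (fun x : ℝ => om (powMonoidHom (2 * g - 2)) x d e) ((g - 1) * e * d)
    (fun x => om_zero _ _ _) (fun k => om_O H8 hg hd he k) k hk1
  have h2 := small (b := (g - 1) * e * d * (k * (k + 1)) - 1) (by
    have : (g - 1) * e * d * 2 ≤ (g - 1) * e * d * (k * (k + 1)) := Nat.mul_le_mul_left _ h3
    omega) h1
  have h4 := ((om_top H8 hg hd he k hk1).const_mul (k : ℂ)).add h2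
  rw [add_zero] at h4
  refine h4.congr ?_
  intro x
  ring

theorem ld_O (H8 : RowA8) {g d e : ℕ} (hg : 2 ≤ g) (hd : 1 ≤ d) (he : 1 ≤ e) (k : ℕ)
    (hk1 : 1 ≤ k) :
    (fun x : ℝ => ld (om (powMonoidHom (2 * g - 2)) x d e) k) =O[atTop]
      fun x : ℝ => x ^ ((g - 1) * e * d * (k * (k + 1))) := by
  have h1 := H682.rowB (fun x : ℝ => om (powMonoidHom (2 * g - 2)) x d e) ((g - 1) * e * d)
    (fun x => om_zero _ _ _) (fun k => om_O H8 hg hd he k) k hk1
  have h2 : (fun x : ℝ => x ^ ((g - 1) * e * d * (k * (k + 1)) - 2 * ((g - 1) * e * d)))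
      =O[atTop] fun x : ℝ => x ^ ((g - 1) * e * d * (k * (k + 1))) := by
    refine IsBigO.of_bound 1 ?_
    filter_upwards [eventually_ge_atTop (1 : ℝ)] with x hx
    rw [one_mul, norm_pow, norm_pow, Real.norm_eq_abs, abs_of_nonneg (by linarith)]
    exact pow_le_pow_right₀ hx (Nat.sub_le _ _)
  have h3 := (h1.trans h2).add ((om_O H8 hg hd he k).const_mul_left (k : ℂ))
  refine h3.congr_left ?_
  intro x
  ring

theorem lcm_mul {m d : ℕ} : m / Nat.gcd m d * d = Nat.lcm m d := by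
  rw [Nat.lcm, Nat.div_mul_right_comm (Nat.gcd_dvd_left m d)]

/-- one divisor -/
theorem one_div (H8 : RowA8) {n m g d : ℕ} (hn : 1 ≤ n) (hm : m ∣ n) (h2 : 2 ≤ m) (hg : 2 ≤ g)
    (hd : d ∣ n) :
    Tendsto (fun x : ℝ => ld (om (powMonoidHom (2 * g - 2)) x d (m / Nat.gcd m d))
      (n / Nat.lcm m d) / (x : ℂ) ^ ((g - 1) * n * (n / m + 1) - 1)
        - (if d ∣ m then ((n / m : ℕ) : ℂ) * x else 0)) atTop
      (𝓝 (if d = 1 then -(((2 * g - 2) * n : ℕ) : ℂ) else 0)) := by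
  have hd1 : 1 ≤ d := Nat.pos_of_dvd_of_pos hd hn
  have hm1 : 1 ≤ m := by omega
  have he : 1 ≤ m / Nat.gcd m d := Nat.div_pos (Nat.gcd_le_left d hm1) (Nat.gcd_pos_of_pos_left d hm1)
  have hl : Nat.lcm m d ∣ n := Nat.lcm_dvd hm hd
  have hl1 : 1 ≤ Nat.lcm m d := Nat.pos_of_dvd_of_pos hl hn
  have hk1 : 1 ≤ n / Nat.lcm m d := Nat.div_pos (Nat.le_of_dvd hn hl) hl1
  have hE : (g - 1) * (m / Nat.gcd m d) * d * (n / Nat.lcm m d * (n / Nat.lcm m d + 1))
      = (g - 1) * n * (n / Nat.lcm m d + 1) := by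
    rw [mul_assoc (g - 1), lcm_mul]
    have : Nat.lcm m d * (n / Nat.lcm m d) = n := Nat.mul_div_cancel' hl
    calc (g - 1) * Nat.lcm m d * (n / Nat.lcm m d * (n / Nat.lcm m d + 1))
        = (g - 1) * (Nat.lcm m d * (n / Nat.lcm m d)) * (n / Nat.lcm m d + 1) := by ring
      _ = _ := by rw [this]
  by_cases hdm : d ∣ m
  · have h1 := ld_top H8 hg hd1 he (n / Nat.lcm m d) hk1
    rw [hE] at h1
    have hlm : Nat.lcm m d = m := by
      rw [Nat.lcm_comm]
      exact Nat.lcm_eq_right hdm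
    rw [hlm] at h1 ⊢
    simp only [if_pos hdm]
    convert h1 using 2
    by_cases h : d = 1
    · subst h
      rw [if_pos rfl, if_pos rfl, Nat.gcd_one_right, Nat.div_one]
      have : n = n / m * m := (Nat.div_mul_cancel hm).symm
      conv_lhs => rw [this]
      push_cast
      ring
    · rw [if_neg h, if_neg h, mul_zero]
  · have h1 := ld_O H8 hg hd1 he (n / Nat.lcm m d) hk1
    rw [hE] at h1
    simp only [if_neg hdm, if_neg (fun h : d = 1 => hdm (h ▸ one_dvd m)), sub_zero]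
    refine small ?_ h1
    have h3 : 2 * m ≤ Nat.lcm m d := by
      obtain ⟨c, hc⟩ := Nat.dvd_lcm_left m d
      have h4 : c ≠ 0 := by
        rintro rfl
        omega
      have h5 : c ≠ 1 := by
        rintro rfl
        rw [mul_one] at hc
        exact hdm (hc ▸ Nat.dvd_lcm_right m d)
      rw [hc, mul_comm]
      exact Nat.mul_le_mul_left m (by omega)
    have h4 : n / Nat.lcm m d + 1 ≤ n / m := by
      have h5 : n / Nat.lcm m d ≤ n / (2 * m) := Nat.div_le_div_left h3 (by omega)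
      have h6 : n / (2 * m) = n / m / 2 := by
        rw [mul_comm, Nat.div_div_eq_div_mul]
      have h7 : 1 ≤ n / m := Nat.div_pos (Nat.le_of_dvd hn hm) hm1
      omega
    have h5 : 2 ≤ (g - 1) * n := by
      have : m ≤ n := Nat.le_of_dvd hn hm
      have : 1 ≤ g - 1 := by omega
      nlinarith
    have h6 : (g - 1) * n * (n / Nat.lcm m d + 1) + (g - 1) * n ≤ (g - 1) * n * (n / m + 1) := by
      calc (g - 1) * n * (n / Nat.lcm m d + 1) + (g - 1) * n
          = (g - 1) * n * (n / Nat.lcm m d + 1 + 1) := by ring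
        _ ≤ _ := Nat.mul_le_mul_left _ (by omega)
    omega

/-- ROW D -/
theorem rowD (H8 : RowA8) {n m g : ℕ} (hn : 1 ≤ n) (hm : m ∣ n) (h2 : 2 ≤ m) (hg : 2 ≤ g) :
    Tendsto (fun x : ℝ => eG n m g x / (x : ℂ) ^ ((g - 1) * (n ^ 2 + n * (n / m)) - 1)) atTop
      (𝓝 (-((2 * g - 2 : ℕ) : ℂ))) := by
  have h1 : Tendsto (fun x : ℝ => ∑ d ∈ n.divisors, ((ArithmeticFunction.moebius d : ℤ) : ℂ) *
      (ld (om (powMonoidHom (2 * g - 2)) x d (m / Nat.gcd m d))
      (n / Nat.lcm m d) / (x : ℂ) ^ ((g - 1) * n * (n / m + 1) - 1)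
        - (if d ∣ m then ((n / m : ℕ) : ℂ) * x else 0))) atTop
      (𝓝 (∑ d ∈ n.divisors, ((ArithmeticFunction.moebius d : ℤ) : ℂ) *
        if d = 1 then -(((2 * g - 2) * n : ℕ) : ℂ) else 0)) := by
    apply tendsto_finsetSum
    intro d hd
    exact (one_div H8 hn hm h2 hg (Nat.dvd_of_mem_divisors hd)).const_mul _
  have h3 : (∑ d ∈ n.divisors, ((ArithmeticFunction.moebius d : ℤ) : ℂ) *
        if d = 1 then -(((2 * g - 2) * n : ℕ) : ℂ) else 0) = -(((2 * g - 2) * n : ℕ) : ℂ) := by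
    rw [Finset.sum_eq_single 1]
    · simp
    · intro d _ hd
      rw [if_neg hd, mul_zero]
    · intro h
      exact absurd (Nat.one_mem_divisors.mpr (by omega)) h
  have h4 : (∑ d ∈ n.divisors, if d ∣ m then ((ArithmeticFunction.moebius d : ℤ) : ℂ) else 0) = 0 := by
    have h5 : (∑ d ∈ n.divisors, if d ∣ m then ((ArithmeticFunction.moebius d : ℤ) : ℂ) else 0)
        = ∑ d ∈ m.divisors, ((ArithmeticFunction.moebius d : ℤ) : ℂ) := by
      rw [← Finset.sum_filter]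
      apply Finset.sum_congr
      · ext d
        simp only [Finset.mem_filter, Nat.mem_divisors]
        constructor
        · rintro ⟨⟨_, _⟩, h⟩
          exact ⟨h, by omega⟩
        · rintro ⟨h, _⟩
          exact ⟨⟨h.trans hm, by omega⟩, h⟩
      · intro _ _
        rfl
    rw [h5]
    have h6 : (∑ d ∈ m.divisors, ArithmeticFunction.moebius d) = 0 := by
      have h7 := congrArg (fun f => f m) ArithmeticFunction.moebius_mul_coe_zeta
      simp only [ArithmeticFunction.one_apply] at h7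
      rw [ArithmeticFunction.coe_mul_zeta_apply, if_neg (by omega)] at h7
      exact h7
    exact_mod_cast h6
  rw [h3] at h1
  have h5 := h1.const_mul (1 / (n : ℂ))
  have hn0 : (n : ℂ) ≠ 0 := by exact_mod_cast (by omega : n ≠ 0)
  have h6 : (1 / (n : ℂ)) * -(((2 * g - 2) * n : ℕ) : ℂ) = -((2 * g - 2 : ℕ) : ℂ) := by
    push_cast
    field_simp
  rw [h6] at h5
  refine h5.congr' ?_
  filter_upwards [eventually_gt_atTop (1 : ℝ)] with x hx
  have hx0 : (x : ℂ) ≠ 0 := by exact_mod_cast (by linarith : x ≠ 0)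
  have h7 : ∑ d ∈ n.divisors, ((ArithmeticFunction.moebius d : ℤ) : ℂ) *
      (if d ∣ m then ((n / m : ℕ) : ℂ) * x else 0) = 0 := by
    have : ∀ d ∈ n.divisors, ((ArithmeticFunction.moebius d : ℤ) : ℂ) *
      (if d ∣ m then ((n / m : ℕ) : ℂ) * x else 0)
        = (if d ∣ m then ((ArithmeticFunction.moebius d : ℤ) : ℂ) else 0)
          * (((n / m : ℕ) : ℂ) * x) := by
      intro d _
      split_ifs <;> ring
    rw [Finset.sum_congr rfl this, ← Finset.sum_mul, h4, zero_mul]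
  have h8 : ∑ d ∈ n.divisors, ((ArithmeticFunction.moebius d : ℤ) : ℂ) *
      (ld (om (powMonoidHom (2 * g - 2)) x d (m / Nat.gcd m d))
      (n / Nat.lcm m d) / (x : ℂ) ^ ((g - 1) * n * (n / m + 1) - 1)
        - (if d ∣ m then ((n / m : ℕ) : ℂ) * x else 0))
      = (∑ d ∈ n.divisors, ((ArithmeticFunction.moebius d : ℤ) : ℂ) *
      ld (om (powMonoidHom (2 * g - 2)) x d (m / Nat.gcd m d))
      (n / Nat.lcm m d)) / (x : ℂ) ^ ((g - 1) * n * (n / m + 1) - 1) := by
    simp only [mul_sub]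
    rw [Finset.sum_sub_distrib, h7, sub_zero, Finset.sum_div]
    apply Finset.sum_congr rfl
    intro d _
    ring
  rw [h8]
  unfold eG
  have h9 : (g - 1) * (n ^ 2 + n * (n / m)) - 1
      = n * (n - 1) * (g - 1) + ((g - 1) * n * (n / m + 1) - 1) := by
    have h10 : 1 ≤ (g - 1) * n * (n / m + 1) := by
      have : 1 ≤ g - 1 := by omega
      have h11 : 1 ≤ (g - 1) * n := Nat.mul_pos this hn
      exact Nat.mul_pos h11 (Nat.succ_pos _)
    have h12 : (g - 1) * (n ^ 2 + n * (n / m))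
        = n * (n - 1) * (g - 1) + (g - 1) * n * (n / m + 1) := by
      obtain ⟨t, ht⟩ : ∃ t, n = t + 1 := ⟨n - 1, by omega⟩
      obtain ⟨K, hK⟩ : ∃ K, K = n / m := ⟨_, rfl⟩
      rw [← hK, ht, Nat.add_sub_cancel]
      ring
    omega
  rw [h9, pow_add, mul_div_mul_left _ _ (pow_ne_zero _ hx0), mul_div_assoc]

end Vale.Agent.P275.R2.H912
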