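import Vale.Agent.P275.R2.H912.D
import Vale.Agent.P275.R2.H239.RowE
import Vale.Agent.P275.H633.A8

/-! # P275, lowest degree: the row of the starting tree -/

namespace Vale.Agent.P275.R2.H912

open Filter Topology Vale.Agent.P275.H341

/-- the leading term of the point count of the isotypic part -/
theorem eG_limit {n m g : ℕ} (hn : 1 ≤ n) (hm : m ∣ n) (h2 : 2 ≤ m) (hg : 2 ≤ g) :
    Tendsto (fun x : ℝ => eG n m g x / (x : ℂ) ^ ((g - 1) * (n ^ 2 + n * (n / m)) - 1)) atTop
      (𝓝 (-((2 * g - 2 : ℕ) : ℂ))) := rowD H633.rowA8 hn hm h2 hg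

theorem rowTopG : RowTopG := by
  intro n m g hn hm h2 hg h hw hz hs hcnt
  exact H239.rowE hn hm h2 hg (eG n m g) (eG_limit hn hm h2 hg) h hw hz hs hcnt

end Vale.Agent.P275.R2.H912
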